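import Mathlib
import Vale.Agent.Lib.P015.Key

/-!
# P015 (Gaussian moat problem): every real line

For EVERY real line `{P + t e : t real}` of the complex plane (any base point `P`, any nonzero
direction `e`; the slope may be irrational and the line need not contain a Gaussian integer):

1. for all `R` and `T` there is a parameter `t ≥ T` such that the closed disc of radius `R`
   centred at the point `P + t e` of the line contains no Gaussian prime;
2. there is no infinite sequence of distinct Gaussian primes with steps of length at most `D`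
   all of whose terms lie within distance `W` of the line.
-/

namespace Vale.Agent.Results.P015.AnyRealLine

open Vale.Agent.Lib.P015

theorem discs (P e : ℂ) (he : e ≠ 0) (R T : ℝ) : ∃ t : ℝ, T ≤ t ∧
    ∀ z : GaussianInt, ‖(z : ℂ) - (P + t * e)‖ ≤ R → ¬ Irreducible z := by
  have he' : e.re ≠ 0 ∨ e.im ≠ 0 := by
    by_contra h
    push Not at h
    exact he (Complex.ext h.1 h.2)
  obtain ⟨a, b, t, hT, ha, hb, hbox⟩ := key P.re P.im e.re e.im he' (⌈R⌉₊ + 1) T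
  refine ⟨t, hT, ?_⟩
  intro z hz
  have hR : R ≤ (⌈R⌉₊ : ℝ) := Nat.le_ceil R
  have h1 : |((z : ℂ) - (P + t * e)).re| ≤ R := le_trans (Complex.abs_re_le_norm _) hz
  have h2 : |((z : ℂ) - (P + t * e)).im| ≤ R := le_trans (Complex.abs_im_le_norm _) hz
  have e1 : ((z : ℂ) - (P + t * e)).re = (z.re : ℝ) - (P.re + t * e.re) := by
    rw [GaussianInt.intCast_re]; simp
  have e2 : ((z : ℂ) - (P + t * e)).im = (z.im : ℝ) - (P.im + t * e.im) := by
    rw [GaussianInt.intCast_im]; simp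
  rw [e1] at h1
  rw [e2] at h2
  have hu : |z.re - a| ≤ ((⌈R⌉₊ + 1 : ℕ) : ℤ) := by
    have : |((z.re - a : ℤ) : ℝ)| ≤ (((⌈R⌉₊ + 1 : ℕ) : ℤ) : ℝ) := by
      push_cast
      rw [abs_le] at h1 ha ⊢
      constructor <;> linarith [h1.1, h1.2, ha.1, ha.2]
    exact_mod_cast this
  have hv : |z.im - b| ≤ ((⌈R⌉₊ + 1 : ℕ) : ℤ) := by
    have : |((z.im - b : ℤ) : ℝ)| ≤ (((⌈R⌉₊ + 1 : ℕ) : ℤ) : ℝ) := by
      push_cast
      rw [abs_le] at h2 hb ⊢
      constructor <;> linarith [h2.1, h2.2, hb.1, hb.2]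
    exact_mod_cast this
  have := hbox (z.re - a) (z.im - b) hu hv
  have hz' : (⟨a + (z.re - a), b + (z.im - b)⟩ : GaussianInt) = z := by
    apply Zsqrtd.ext <;> simp
  rwa [hz'] at this

theorem finite_ball (B : ℝ) : {z : GaussianInt | ‖(z : ℂ)‖ ≤ B}.Finite := by
  have hfin : ((fun p : ℤ × ℤ => (⟨p.1, p.2⟩ : GaussianInt)) ''
      (Set.Icc (-(⌈B⌉₊ : ℤ)) ⌈B⌉₊ ×ˢ Set.Icc (-(⌈B⌉₊ : ℤ)) ⌈B⌉₊)).Finite :=
    ((Set.finite_Icc _ _).prod (Set.finite_Icc _ _)).image _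
  refine hfin.subset ?_
  intro z hz
  have hB : B ≤ (⌈B⌉₊ : ℝ) := Nat.le_ceil B
  have h1 : |((z : ℂ)).re| ≤ B := le_trans (Complex.abs_re_le_norm _) hz
  have h2 : |((z : ℂ)).im| ≤ B := le_trans (Complex.abs_im_le_norm _) hz
  rw [← GaussianInt.intCast_re] at h1
  rw [← GaussianInt.intCast_im] at h2
  have h1' : |z.re| ≤ (⌈B⌉₊ : ℤ) := by
    have : |((z.re : ℤ) : ℝ)| ≤ (((⌈B⌉₊ : ℕ) : ℤ) : ℝ) := by push_cast; linarith
    exact_mod_cast this
  have h2' : |z.im| ≤ (⌈B⌉₊ : ℤ) := by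
    have : |((z.im : ℤ) : ℝ)| ≤ (((⌈B⌉₊ : ℕ) : ℤ) : ℝ) := by push_cast; linarith
    exact_mod_cast this
  rw [abs_le] at h1' h2'
  exact ⟨(z.re, z.im), ⟨⟨h1'.1, h1'.2⟩, ⟨h2'.1, h2'.2⟩⟩, rfl⟩

theorem no_walk (P e : ℂ) (he : e ≠ 0) (D W : ℝ) : ¬ ∃ z : ℕ → GaussianInt,
    Function.Injective z ∧ (∀ k, Irreducible (z k)) ∧
    (∀ k, ‖(z (k + 1) : ℂ) - (z k : ℂ)‖ ≤ D) ∧
    (∀ k, ∃ t : ℝ, ‖(z k : ℂ) - (P + t * e)‖ ≤ W) := by
  rintro ⟨z, hinj, hirr, hstep, hstrip⟩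
  choose t ht using hstrip
  have hepos : 0 < ‖e‖ := norm_pos_iff.mpr he
  set dl : ℝ := (D + 2 * W) / ‖e‖ with hdl
  have hdle : dl * ‖e‖ = D + 2 * W := by rw [hdl]; field_simp
  have hst : ∀ k, |t (k + 1) - t k| ≤ dl := by
    intro k
    rw [hdl, le_div_iff₀ hepos]
    have h1 : ((t (k + 1) - t k : ℝ) : ℂ) * e = ((z (k + 1) : ℂ) - (z k : ℂ))
        - ((z (k + 1) : ℂ) - (P + t (k + 1) * e)) + ((z k : ℂ) - (P + t k * e)) := by
      push_cast; ring
    have h2 : ‖((t (k + 1) - t k : ℝ) : ℂ) * e‖ = |t (k + 1) - t k| * ‖e‖ := by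
      rw [norm_mul, Complex.norm_real, Real.norm_eq_abs]
    rw [← h2, h1]
    calc _ ≤ ‖((z (k + 1) : ℂ) - (z k : ℂ)) - ((z (k + 1) : ℂ) - (P + t (k + 1) * e))‖
          + ‖(z k : ℂ) - (P + t k * e)‖ := norm_add_le _ _
      _ ≤ ‖(z (k + 1) : ℂ) - (z k : ℂ)‖ + ‖(z (k + 1) : ℂ) - (P + t (k + 1) * e)‖
          + ‖(z k : ℂ) - (P + t k * e)‖ := by gcongr; exact norm_sub_le _ _
      _ ≤ D + W + W := by gcongr <;> first | exact hstep k | exact ht _
      _ = D + 2 * W := by ring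
  have hdl0 : 0 ≤ dl := le_trans (abs_nonneg _) (hst 0)
  -- a term whose parameter is close to the centre of an empty disc is impossible
  have hclose : ∀ (c : ℝ), (∀ w : GaussianInt, ‖(w : ℂ) - (P + c * e)‖ ≤ D + 3 * W →
      ¬ Irreducible w) → ∀ k, ¬ |t k - c| ≤ dl := by
    intro c hc k hk
    refine hc (z k) ?_ (hirr k)
    have h1 : (z k : ℂ) - (P + c * e) = ((z k : ℂ) - (P + t k * e)) + ((t k - c : ℝ) : ℂ) * e := by
      push_cast; ring
    have h2 : ‖((t k - c : ℝ) : ℂ) * e‖ = |t k - c| * ‖e‖ := by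
      rw [norm_mul, Complex.norm_real, Real.norm_eq_abs]
    calc ‖(z k : ℂ) - (P + c * e)‖ ≤ ‖(z k : ℂ) - (P + t k * e)‖ + ‖((t k - c : ℝ) : ℂ) * e‖ := by
          rw [h1]; exact norm_add_le _ _
      _ ≤ W + dl * ‖e‖ := by
          rw [h2]; gcongr; exact ht k
      _ = D + 3 * W := by rw [hdle]; ring
  obtain ⟨c1, hc1T, hc1⟩ := discs P e he (D + 3 * W) (t 0 + dl + 1)
  obtain ⟨c2, hc2T, hc2⟩ := discs P (-e) (neg_ne_zero.mpr he) (D + 3 * W) (-t 0 + dl + 1)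
  have hc2' : ∀ w : GaussianInt, ‖(w : ℂ) - (P + ((-c2 : ℝ) : ℂ) * e)‖ ≤ D + 3 * W →
      ¬ Irreducible w := by
    intro w hw
    refine hc2 w ?_
    have : P + (c2 : ℂ) * -e = P + ((-c2 : ℝ) : ℂ) * e := by push_cast; ring
    rwa [this]
  have hup : ∀ k, t k < c1 - dl := by
    intro k
    induction k with
    | zero => linarith
    | succ k ih =>
      by_contra hcon
      push Not at hcon
      have h1 := hst k
      rw [abs_le] at h1
      refine hclose c1 hc1 (k + 1) ?_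
      rw [abs_le]
      constructor <;> linarith [h1.1, h1.2]
  have hlow : ∀ k, -c2 + dl < t k := by
    intro k
    induction k with
    | zero => linarith
    | succ k ih =>
      by_contra hcon
      push Not at hcon
      have h1 := hst k
      rw [abs_le] at h1
      refine hclose (-c2) hc2' (k + 1) ?_
      rw [abs_le]
      constructor <;> linarith [h1.1, h1.2]
  have hbd : ∀ k, ‖(z k : ℂ)‖ ≤ W + (‖P‖ + (|c1| + |c2|) * ‖e‖) := by
    intro k
    have h1 : (z k : ℂ) = ((z k : ℂ) - (P + t k * e)) + (P + (t k : ℂ) * e) := by ring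
    have h2 : ‖(t k : ℂ) * e‖ = |t k| * ‖e‖ := by
      rw [norm_mul, Complex.norm_real, Real.norm_eq_abs]
    have h3 : |t k| ≤ |c1| + |c2| := by
      rw [abs_le]
      have := hup k
      have := hlow k
      have := le_abs_self c1
      have := le_abs_self c2
      have := abs_nonneg c1
      have := abs_nonneg c2
      constructor <;> linarith
    calc ‖(z k : ℂ)‖ ≤ ‖(z k : ℂ) - (P + t k * e)‖ + ‖P + (t k : ℂ) * e‖ := by
          conv_lhs => rw [h1]
          exact norm_add_le _ _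
      _ ≤ W + (‖P‖ + ‖(t k : ℂ) * e‖) := by
          gcongr
          · exact ht k
          · exact norm_add_le _ _
      _ ≤ W + (‖P‖ + (|c1| + |c2|) * ‖e‖) := by
          rw [h2]; gcongr
  have hsub : Set.range z ⊆ {w : GaussianInt | ‖(w : ℂ)‖ ≤ W + (‖P‖ + (|c1| + |c2|) * ‖e‖)} := by
    rintro _ ⟨k, rfl⟩
    exact hbd k
  exact (Set.infinite_range_of_injective hinj) ((finite_ball _).subset hsub)

/-- **Gaussian-prime-free discs on, and no bounded-step prime walk along, every real line.** -/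
theorem result :
    (∀ (P e : ℂ), e ≠ 0 → ∀ R T : ℝ, ∃ t : ℝ, T ≤ t ∧
        ∀ z : GaussianInt, ‖(z : ℂ) - (P + t * e)‖ ≤ R → ¬ Irreducible z) ∧
    (∀ (P e : ℂ), e ≠ 0 → ∀ D W : ℝ, ¬ ∃ z : ℕ → GaussianInt,
        Function.Injective z ∧ (∀ k, Irreducible (z k)) ∧
        (∀ k, ‖(z (k + 1) : ℂ) - (z k : ℂ)‖ ≤ D) ∧
        (∀ k, ∃ t : ℝ, ‖(z k : ℂ) - (P + t * e)‖ ≤ W)) :=
  ⟨discs, no_walk⟩

end Vale.Agent.Results.P015.AnyRealLine
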